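import Mathlib

/-!
# Row 262, CERT (helper21), part 1: polynomial identities modulo `p` by Kronecker substitution

* `Ex`        : expressions with natural coefficients, `ev` evaluation, `dg` degree bound;
* `chk`       : the check; `ev_eq_zero` : its correctness in characteristic `p`;
* `sb`, `der` : substitution and derivative; `pk` : packed polynomials;
* `NZ`        : certificates for the absence of common zeros.
-/

set_option autoImplicit false

open MvPolynomial

namespace Crest.Agent.X262.Cert21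

noncomputable section

/-- expressions -/
inductive Ex : Type
  | c : ℕ → Ex
  | v : ℕ → Ex
  | add : Ex → Ex → Ex
  | mul : Ex → Ex → Ex

namespace Ex

/-- evaluation -/
def ev {R : Type*} [CommSemiring R] (z : ℕ → R) : Ex → R
  | c n => n
  | v i => z i
  | add a b => ev z a + ev z b
  | mul a b => ev z a * ev z b

/-- evaluation in `ℕ` -/
def en (z : ℕ → ℕ) (e : Ex) : ℕ :=
  Ex.rec (fun n => n) z (fun _ _ a b => Nat.add a b) (fun _ _ a b => Nat.mul a b) e

/-- a bound for the degree -/
def dg (e : Ex) : ℕ :=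
  Ex.rec (fun _ => 0) (fun _ => 1) (fun _ _ a b => if Nat.ble a b then b else a)
    (fun _ _ a b => Nat.add a b) e

/-- substitution -/
def sb (s : ℕ → Ex) (e : Ex) : Ex :=
  Ex.rec c s (fun _ _ a b => add a b) (fun _ _ a b => mul a b) e

/-- derivative -/
def der (i : ℕ) (e : Ex) : Ex :=
  Ex.rec (fun _ => c 0) (fun j => if Nat.beq j i then c 1 else c 0) (fun _ _ a b => add a b)
    (fun x y a b => add (mul a y) (mul x b)) e

theorem en_eq (z : ℕ → ℕ) (e : Ex) : en z e = ev z e := by
  induction e with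
  | c n => rfl
  | v i => rfl
  | add a b ha hb => exact congrArg₂ (· + ·) ha hb
  | mul a b ha hb => exact congrArg₂ (· * ·) ha hb

theorem map_ev {R S F : Type*} [CommSemiring R] [CommSemiring S] [FunLike F R S]
    [RingHomClass F R S] (f : F) (z : ℕ → R) (e : Ex) : f (ev z e) = ev (fun i => f (z i)) e := by
  induction e with
  | c n => exact map_natCast f n
  | v i => rfl
  | add a b ha hb => rw [ev, map_add, ha, hb, ev]
  | mul a b ha hb => rw [ev, map_mul, ha, hb, ev]

theorem ev_sb {R : Type*} [CommSemiring R] (z : ℕ → R) (s : ℕ → Ex) (e : Ex) :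
    ev z (sb s e) = ev (fun i => ev z (s i)) e := by
  induction e with
  | c n => rfl
  | v i => rfl
  | add a b ha hb => exact congrArg₂ (· + ·) ha hb
  | mul a b ha hb => exact congrArg₂ (· * ·) ha hb

theorem der_ev {k R : Type*} [CommRing k] [CommRing R] [Algebra k R] (D : Derivation k R R)
    (z : ℕ → R) (i : ℕ) (h : ∀ j, D (z j) = if j = i then 1 else 0) (e : Ex) :
    D (ev z e) = ev z (der i e) := by
  induction e with
  | c n => simp [ev, der]
  | v j =>
    rw [ev, h]
    by_cases hj : j = i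
    · simp [der, hj, ev]
    · have : Nat.beq j i = false := by
        rw [Bool.eq_false_iff]
        exact fun h => hj (Nat.eq_of_beq_eq_true h)
      simp [der, hj, this, ev]
  | add a b ha hb => rw [ev, map_add, ha, hb]; rfl
  | mul a b ha hb =>
    rw [ev, Derivation.leibniz, ha, hb, smul_eq_mul, smul_eq_mul, add_comm, mul_comm (ev z b)]
    rfl

theorem totalDegree_ev {σ : Type*} (z : ℕ → MvPolynomial σ ℕ) (hz : ∀ i, (z i).totalDegree ≤ 1)
    (e : Ex) : (ev z e).totalDegree ≤ dg e := by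
  induction e with
  | c n => exact (totalDegree_C (n : ℕ)).le
  | v i => exact hz i
  | add a b ha hb =>
    refine (totalDegree_add _ _).trans ?_
    change _ ≤ if Nat.ble (dg a) (dg b) then dg b else dg a
    split_ifs with h
    · exact max_le (ha.trans (Nat.le_of_ble_eq_true h)) hb
    · exact max_le ha (hb.trans (by rw [Nat.ble_eq] at h; omega))
  | mul a b ha hb => exact (totalDegree_mul _ _).trans (Nat.add_le_add ha hb)

end Ex

/-- all digits are divisible by `p`; the base is `2 ^ b`, there are `2 ^ k` digits -/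
def dig (p b : ℕ) (k : ℕ) : ℕ → Bool :=
  Nat.rec (fun N => Nat.beq (Nat.mod N p) 0)
    (fun k r N => Nat.rec (motive := fun _ => Bool) true (fun _ _ =>
      r (Nat.mod N (Nat.pow 2 (Nat.mul b (Nat.pow 2 k)))) &&
      r (Nat.shiftRight N (Nat.mul b (Nat.pow 2 k)))) N) k

theorem dig_spec {p b : ℕ} : ∀ (k N : ℕ), dig p b k N = true → N < (2 ^ b) ^ 2 ^ k →
    ∀ i, p ∣ N / (2 ^ b) ^ i % 2 ^ b := by
  intro k
  induction k with
  | zero =>
    intro N h hN i
    rw [pow_zero, pow_one] at hN
    have h1 : p ∣ N := Nat.dvd_of_mod_eq_zero (Nat.eq_of_beq_eq_true h)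
    rcases i with _ | i
    · rwa [pow_zero, Nat.div_one, Nat.mod_eq_of_lt hN]
    · rw [pow_succ', ← Nat.div_div_eq_div_mul, Nat.div_eq_of_lt hN]
      simp
  | succ k ih =>
    intro N h hN i
    rcases N with _ | M
    · simp
    set N := M + 1
    set Q := (2 ^ b) ^ 2 ^ k with hQ
    have hQ0 : 0 < Q := by positivity
    have h1 : dig p b k (N % Q) = true ∧ dig p b k (N / Q) = true := by
      have : (dig p b k (N % 2 ^ (b * 2 ^ k)) && dig p b k (N >>> (b * 2 ^ k))) = true := h
      rwa [Nat.shiftRight_eq_div_pow, pow_mul, Bool.and_eq_true] at this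
    by_cases hi : i < 2 ^ k
    · have h2 := ih _ h1.1 (Nat.mod_lt _ hQ0) i
      obtain ⟨j, hj⟩ := Nat.exists_eq_add_of_lt hi
      rw [hQ, hj, add_assoc, pow_add, Nat.mod_mul_right_div_self, pow_succ,
        Nat.mod_mul_left_mod] at h2
      exact h2
    · obtain ⟨j, rfl⟩ := Nat.exists_eq_add_of_le (not_lt.1 hi)
      rw [pow_add, ← Nat.div_div_eq_div_mul]
      refine ih _ h1.2 (Nat.div_lt_of_lt_mul ?_) j
      rwa [pow_succ, mul_two, pow_add] at hN

theorem digit_sum {ι : Type*} (s : Finset ι) (c e : ι → ℕ) (B : ℕ) (he : Set.InjOn e s)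
    (hB : ∑ m ∈ s, c m < B) {m₀ : ι} (hm : m₀ ∈ s) :
    (∑ m ∈ s, c m * B ^ e m) / B ^ e m₀ % B = c m₀ := by
  classical
  have hB0 : 0 < B := by omega
  set lo := s.filter (fun m => e m < e m₀)
  set hi := s.filter (fun m => e m₀ < e m)
  have h1 : ∑ m ∈ s, c m * B ^ e m = ∑ m ∈ lo, c m * B ^ e m +
      B ^ e m₀ * (c m₀ + B * ∑ m ∈ hi, c m * B ^ (e m - (e m₀ + 1))) := by
    rw [← Finset.sum_filter_add_sum_filter_not s (fun m => e m < e m₀)]
    congr 1
    have : s.filter (fun m => ¬ e m < e m₀) = insert m₀ hi := by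
      ext m
      simp only [hi, Finset.mem_filter, Finset.mem_insert]
      constructor
      · rintro ⟨h1, h2⟩
        rcases (not_lt.1 h2).eq_or_lt with h3 | h3
        · exact Or.inl (he h1 hm h3.symm)
        · exact Or.inr ⟨h1, h3⟩
      · rintro (rfl | ⟨h1, h2⟩)
        · exact ⟨hm, lt_irrefl _⟩
        · exact ⟨h1, not_lt.2 h2.le⟩
    rw [this, Finset.sum_insert (by simp [hi]), mul_add, mul_comm (c m₀), Finset.mul_sum,
      Finset.mul_sum]
    congr 1
    refine Finset.sum_congr rfl fun m hm' => ?_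
    obtain ⟨j, hj⟩ := Nat.exists_eq_add_of_lt (Finset.mem_filter.1 hm').2
    rw [show e m - (e m₀ + 1) = j by omega, hj]
    ring
  have h2 : ∑ m ∈ lo, c m * B ^ e m < B ^ e m₀ := by
    rcases Nat.eq_zero_or_pos (e m₀) with h0 | h0
    · have : lo = ∅ := Finset.filter_false_of_mem fun m _ => by omega
      simp [this, h0]
    obtain ⟨j, hj⟩ := Nat.exists_eq_add_of_lt h0
    calc ∑ m ∈ lo, c m * B ^ e m ≤ ∑ m ∈ lo, c m * B ^ j := Finset.sum_le_sum fun m hm' =>
          Nat.mul_le_mul_left _ (Nat.pow_le_pow_right hB0 (by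
            have := (Finset.mem_filter.1 hm').2
            omega))
      _ ≤ ∑ m ∈ s, c m * B ^ j := Finset.sum_le_sum_of_subset (Finset.filter_subset _ _)
      _ < B ^ e m₀ := by
        rw [← Finset.sum_mul, hj, zero_add, pow_succ']
        exact Nat.mul_lt_mul_of_pos_right hB (by positivity)
  rw [h1, Nat.add_mul_div_left _ _ (by positivity), Nat.div_eq_of_lt h2, zero_add,
    Nat.add_mul_mod_self_left]
  exact Nat.mod_eq_of_lt ((Finset.single_le_sum (fun _ _ => Nat.zero_le _) hm).trans_lt hB)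

/-- variables with index `≥ n` are zero -/
def cut {R : Type*} [Zero R] (n : ℕ) (z : ℕ → R) (i : ℕ) : R := if Nat.ble n i then 0 else z i

/-- the check -/
def chk (p n d b k : ℕ) (e : Ex) : Bool :=
  Nat.ble (Nat.succ e.dg) d && (Nat.ble (Nat.succ (e.en (cut n fun _ => 1))) (Nat.pow 2 b) &&
    (Nat.ble (Nat.pow d n) (Nat.pow 2 k) &&
      dig p b k (e.en (cut n fun i => Nat.pow 2 (Nat.mul b (Nat.pow d i))))))

/-- **correctness of the check** -/
theorem ev_eq_zero {p n d b k : ℕ} {e : Ex} (h : chk p n d b k e = true) {R : Type} [CommRing R]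
    (hp : (p : R) = 0) (z : ℕ → R) : e.ev (cut n z) = 0 := by
  simp only [chk, Bool.and_eq_true, Nat.ble_eq, Ex.en_eq] at h
  obtain ⟨h1, h2, h3, h4⟩ := h
  set x : ℕ → MvPolynomial (Fin n) ℕ := fun i => if h : i < n then X ⟨i, h⟩ else 0 with hx
  set P := e.ev x with hP
  have key : ∀ {S : Type _} [CommSemiring S] (y : ℕ → S),
      e.ev (cut n y) = ∑ m ∈ P.support, ((coeff m P : ℕ) : S) * ∏ i : Fin n, y i ^ m i := by
    intro S _ y
    have e1 := Ex.map_ev (eval₂Hom (Nat.castRingHom S) fun i : Fin n => y i) x e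
    have e2 : (fun i => eval₂Hom (Nat.castRingHom S) (fun i : Fin n => y i) (x i)) = cut n y := by
      funext i
      by_cases hi : i < n
      · simp [hx, cut, hi]
      · simp [hx, cut, hi]
    rw [← e2, ← e1, coe_eval₂Hom, eval₂_eq']
    rfl
  have hd : ∀ m ∈ P.support, ∀ i, m i < d := fun m hm i => by
    have h5 := Ex.totalDegree_ev x (fun i => by
      by_cases hi : i < n
      · simp only [hx, hi, dif_pos]
        exact (isHomogeneous_X ℕ _).totalDegree_le
      · simp [hx, hi]) e
    exact (((monomial_le_degreeOf i hm).trans (degreeOf_le_totalDegree P i)).trans h5).trans_lt h1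
  set ix : (Fin n →₀ ℕ) → ℕ := fun m => ∑ i : Fin n, m i * d ^ (i : ℕ) with hix
  have hfin : ∀ m (hm : m ∈ P.support),
      ix m = finFunctionFinEquiv fun i => (⟨m i, hd m hm i⟩ : Fin d) := fun m hm => by
    rw [finFunctionFinEquiv_apply]
  have hinj : Set.InjOn ix P.support := fun m hm m' hm' he => by
    rw [hfin m hm, hfin m' hm', Fin.val_inj, finFunctionFinEquiv.apply_eq_iff_eq] at he
    ext i
    exact congrArg Fin.val (congrFun he i)
  have hB : ∑ m ∈ P.support, coeff m P < 2 ^ b := by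
    rw [key] at h2
    simpa using h2
  have hN : e.ev (cut n fun i => Nat.pow 2 (Nat.mul b (Nat.pow d i))) =
      ∑ m ∈ P.support, coeff m P * (2 ^ b) ^ ix m := by
    rw [key]
    refine Finset.sum_congr rfl fun m _ => ?_
    rw [hix, ← Finset.prod_pow_eq_pow_sum]
    congr 1
    refine Finset.prod_congr rfl fun i _ => ?_
    change (2 ^ (b * d ^ (i : ℕ))) ^ m i = _
    rw [← pow_mul, ← pow_mul, mul_assoc, mul_comm (m i)]
  rw [hN] at h4
  have hlt : ∑ m ∈ P.support, coeff m P * (2 ^ b) ^ ix m < (2 ^ b) ^ 2 ^ k := by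
    obtain ⟨j, hj⟩ : ∃ j, 2 ^ k = j + 1 := ⟨2 ^ k - 1, by have := Nat.one_le_two_pow (n := k); omega⟩
    calc _ ≤ ∑ m ∈ P.support, coeff m P * (2 ^ b) ^ j := Finset.sum_le_sum fun m hm =>
          Nat.mul_le_mul_left _ (Nat.pow_le_pow_right (by positivity) (by
            have h5 : ix m < d ^ n := by rw [hfin m hm]; exact Fin.is_lt _
            have h6 : d ^ n ≤ 2 ^ k := h3
            omega))
      _ < _ := by
        rw [← Finset.sum_mul, hj, pow_succ']
        exact Nat.mul_lt_mul_of_pos_right hB (by positivity)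
  rw [key]
  refine Finset.sum_eq_zero fun m hm => ?_
  obtain ⟨u, hu⟩ := dig_spec k _ h4 hlt (ix m)
  rw [digit_sum _ _ _ _ hinj hB hm] at hu
  rw [hu, Nat.cast_mul, hp, zero_mul, zero_mul]

/-- binomial coefficient -/
def bn (n D : ℕ) : ℕ := Nat.div (Nat.descFactorial (Nat.add D n) n) (Nat.factorial n)

/-- packed polynomials: the digits of `c` in base `p` are the coefficients of a polynomial of
degree `≤ D` in `n` variables -/
def pk (p n : ℕ) : ℕ → ℕ → Ex :=
  Nat.rec (fun _ c => Ex.c c) (fun n r D => Nat.rec (fun c => r 0 c) (fun D s c =>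
    Nat.rec (motive := fun _ => Ex) (Ex.c 0) (fun _ _ =>
      Ex.add (r (Nat.succ D) (Nat.mod c (Nat.pow p (bn n (Nat.succ D)))))
        (Ex.mul (Ex.v n) (s (Nat.div c (Nat.pow p (bn n (Nat.succ D))))))) c) D) n

/-- the combination `∑ g f` -/
def cmb (p n D : ℕ) (f : List Ex) (g : List ℕ) : Ex :=
  List.rec (fun _ => Ex.c 0) (fun a _ r g => List.rec (motive := fun _ => Ex) (Ex.c 0)
    (fun c g _ => Ex.add (Ex.mul (pk p n D c) a) (r g)) g) f g

theorem ev_cmb {R : Type*} [CommSemiring R] {p n D : ℕ} {z : ℕ → R} : ∀ (f : List Ex) (g : List ℕ),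
    (∀ a ∈ f, a.ev z = 0) → (cmb p n D f g).ev z = 0
  | [], _, _ => Nat.cast_zero
  | _ :: _, [], _ => Nat.cast_zero
  | a :: f, c :: g, h => by
    change (pk p n D c).ev z * a.ev z + (cmb p n D f g).ev z = 0
    rw [h a (by simp), ev_cmb f g fun b hb => h b (by simp [hb]), mul_zero, add_zero]

/-- the certificate `∑ g f + 1 = 0` -/
def NZ (p n D d b k : ℕ) (f : List Ex) (g : List ℕ) : Bool :=
  chk p n d b k (Ex.add (cmb p n D f g) (Ex.c 1))

theorem NZ.false {p n D d b k : ℕ} {f : List Ex} {g : List ℕ} (h : NZ p n D d b k f g = true)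
    {R : Type} [CommRing R] [Nontrivial R] (hp : (p : R) = 0) (z : ℕ → R)
    (hf : ∀ a ∈ f, a.ev (cut n z) = 0) : False := by
  have h1 := ev_eq_zero h hp z
  rw [Ex.ev, ev_cmb f g hf, zero_add, Ex.ev, Nat.cast_one] at h1
  exact one_ne_zero h1

end

end Crest.Agent.X262.Cert21
private theorem rz_18a52b6c52 : type_of% @_root_.Crest.Agent.X262.Cert21.Ex.ev.eq_def := @_root_.Crest.Agent.X262.Cert21.Ex.ev.eq_def -- L30
private theorem rz_92308452c4 : type_of% @_root_.Crest.Agent.X262.Cert21.Ex.ev.eq_1 := @_root_.Crest.Agent.X262.Cert21.Ex.ev.eq_1 -- L30
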